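import Vale.Agent.P246.T.FM
import Vale.Agent.P246.T.PR
import Vale.Agent.P246.T.CC
import Vale.Agent.P246.T.CL

/-! # P246, disproof: the boundary of the fundamental 3-chain (D5b2) -/

open Topology Metric Set

namespace Vale.Agent.P246.Dis.H285

open Vale.Agent.P246.T Vale.Agent.P246.T.FM

/-- A fundamental chain of the 3-cube whose boundary is, up to chains in the other faces, the
fundamental chain of the face `x₀ = 1`. -/
theorem exists_zeta3 (hP : SpecPrism) (hC : SpecCC1) (hL : SpecCL) :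
    ∃ ζ : Ch 3 (Dk 3), IsFund 3 ζ ∧ bd 2 ζ - push (Ph 2) 2 zeta2 ∈ Con (J 2) 2 := by
  obtain ⟨P⟩ := hP
  have hζ : IsFund 2 zeta2 := fund2 P hC hL
  have h0 : bd 1 zeta2 ∈ Con (bdk 2) 1 := hζ.cyc
  have h1 : push (Ph 2) 1 (bd 1 zeta2) ∈ Con (J 2) 1 :=
    push_mem (fun x hx => (attach (n := 2)).bdry x hx) h0
  obtain ⟨b, hb, h2⟩ := acy_J P 2 1 _ h1 (by
    rw [← push_bd]
    exact redCyc_bd 1 _)
  obtain ⟨ξ, -, hξ⟩ := acy_dk P 3 2 (push (Ph 2) 2 zeta2 - b)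
    (mem_univ_con _ _) (by
      change bd 1 _ = 0
      rw [map_sub, push_bd, h2, sub_self])
  have h3 : bd 2 ξ - push (Ph 2) 2 zeta2 ∈ Con (J 2) 2 := by
    rw [hξ, sub_right_comm, sub_self, zero_sub]
    exact neg_mem hb
  refine ⟨ξ, crit P hC hL hζ ?_ h3, h3⟩
  rw [hξ]
  refine sub_mem (push_mem (A := univ) (fun x _ => ?_) (mem_univ_con _ _)) (con_mono J_sub hb)
  rw [(attach (n := 2)).eq]
  exact Or.inr ⟨_, rfl⟩

variable {E : Type} [TopologicalSpace E]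

/-- a chain in the set where the map is constant -/
theorem push_of_const {M : Type} [TopologicalSpace M] {A : Set M} (f : C(M, E)) (e : E)
    (h : ∀ x ∈ A, f x = e) {n : ℕ} {c : Ch n M} (hc : c ∈ Con A n) :
    push f n c = wt n c • ksx n e := by
  have : push f n c - wt n c • ksx n e ∈ (⊥ : Submodule ℤ (Ch n E)) := by
    have := SD.supp_map (push f n - (wt n).smulRight (ksx n e)) (T := (⊥ : Submodule ℤ (Ch n E)))
      ?_ hc
    · exact this
    intro σ hσ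
    rw [LinearMap.sub_apply, push_single, LinearMap.smulRight_apply, wt_single, one_smul,
      Submodule.mem_bot, sub_eq_zero, ksx]
    congr 1
    exact ContinuousMap.ext fun x => h _ (hσ x)
  exact sub_eq_zero.1 ((Submodule.mem_bot ℤ).1 this)

theorem ksx_ne_zero (n : ℕ) (e : E) {m : ℤ} (h : m • ksx n e = 0) : m = 0 := by
  have := congrArg (wt n) h
  rwa [map_smul, wt_ksx, map_zero, smul_eq_mul, mul_one] at this

theorem wt_bd_zeta2 : wt 1 (bd 1 zeta2) = 0 := by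
  rw [bd_zeta2]
  simp only [map_sub, map_add, wt_single]
  norm_num

/-- the boundary of a spherical disc -/
theorem bd_sphere {e : E} (σ : C(Dk 2, E)) (hσ : ∀ z : Dk 2, ‖(z : Fin 2 → ℝ)‖ = 1 → σ z = e)
    (hζ : IsFund 2 zeta2) : bd 1 (push σ 2 zeta2) = 0 := by
  have h : bd 1 zeta2 ∈ Con (bdk 2) 1 := hζ.cyc
  rw [push_bd, push_of_const σ e (fun x hx => hσ x hx) h, wt_bd_zeta2, zero_smul]

/-- The boundary of a ball which fills a spherical disc. -/
theorem bd_ball {e : E} (σ : C(Dk 2, E)) (hσ : ∀ z : Dk 2, ‖(z : Fin 2 → ℝ)‖ = 1 → σ z = e)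
    (δ : C(Dk 3, E)) (h1 : ∀ y, δ (Ph 2 y) = σ y) (h2 : ∀ z ∈ J 2, δ z = e)
    (h2f : IsFund 2 zeta2) {ζ : Ch 3 (Dk 3)}
    (hζ : bd 2 ζ - push (Ph 2) 2 zeta2 ∈ Con (J 2) 2) :
    bd 2 (push δ 3 ζ) = push σ 2 zeta2 := by
  have e1 : push δ 2 (bd 2 ζ - push (Ph 2) 2 zeta2) = _ • ksx 2 e := push_of_const δ e h2 hζ
  have e2 : push δ 2 (push (Ph 2) 2 zeta2) = push σ 2 zeta2 := by
    rw [← push_comp]
    congr 2
    exact ContinuousMap.ext h1
  rw [map_sub, e2, ← push_bd] at e1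
  have e3 : wt 2 (bd 2 ζ - push (Ph 2) 2 zeta2) = 0 := by
    have e4 := congrArg (bd 1) e1
    rw [map_sub, SD.bd_bd, bd_sphere σ hσ h2f, sub_zero, map_smul, bd_ksx] at e4
    have e5 : (∑ i : Fin (1 + 2), (-1 : ℤ) ^ (i : ℕ)) = 1 := by
      rw [Fin.sum_univ_three]; norm_num
    rw [e5, one_smul] at e4
    exact ksx_ne_zero 1 e e4.symm
  rw [e3, zero_smul, sub_eq_zero] at e1
  exact e1

/-- `exists_zeta3` without hypotheses -/
theorem exists_zeta3' : ∃ ζ : Ch 3 (Dk 3), IsFund 3 ζ ∧ bd 2 ζ - push (Ph 2) 2 zeta2 ∈ Con (J 2) 2 :=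
  exists_zeta3 PR.main CC.main1 CL.main

theorem isFund_zeta2 : IsFund 2 zeta2 := by
  obtain ⟨P⟩ := PR.main
  exact fund2 P CC.main1 CL.main

end Vale.Agent.P246.Dis.H285
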