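import Vale.Agent.P246.T.Fin

/-! # P246, disproof: filling a spherical disc in a contractible space (D5b) -/

open Topology Metric Set

namespace Vale.Agent.P246.Dis.H285

open Vale.Agent.P246.T Vale.Agent.P246.T.FM

variable {E : Type} [TopologicalSpace E]

/-- a contraction as a continuous map -/
theorem exists_contr [ContractibleSpace E] :
    ∃ (x₀ : E) (H : C(I × E, E)), (∀ x, H (0, x) = x) ∧ ∀ x, H (1, x) = x₀ := by
  obtain ⟨x₀, ⟨H⟩⟩ := id_nullhomotopic E
  refine ⟨x₀, H.toContinuousMap, fun x => ?_, fun x => ?_⟩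
  · exact (H.apply_zero x).trans rfl
  · exact (H.apply_one x).trans rfl

theorem acy_univ [ContractibleSpace E] : Acy (univ : Set E) := by
  obtain ⟨P⟩ := PR.main
  obtain ⟨x₀, H, h0, h1⟩ := exists_contr (E := E)
  exact acy_of_contr P x₀ H h0 h1

theorem acy_point [ContractibleSpace E] (e : E) : Acy ({e} : Set E) :=
  acy_retract acy_univ (ContinuousMap.const E e) (fun _ => rfl) fun _ hx => hx.symm

/-- the homology of `(E, e)` vanishes -/
theorem hzero_point [ContractibleSpace E] (e : E) (k : ℕ) : HZero univ ({e} : Set E) k := by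
  intro c _ hc
  cases k with
  | zero =>
    obtain ⟨b, hb, h⟩ := acy_univ (E := E) 0 (c - wt 0 c • ksx 0 e) (mem_univ_con _ _) (by
      change wt 0 _ = 0
      rw [map_sub, map_smul, wt_ksx, smul_eq_mul, mul_one, sub_self])
    refine ⟨b, hb, ?_⟩
    rw [h, sub_sub_cancel]
    exact Submodule.smul_mem _ _ (SD.single_mem (fun _ => rfl) 1)
  | succ k =>
    have hc' : bd k c ∈ Con ({e} : Set E) k := hc
    obtain ⟨b', hb', h'⟩ := acy_point e k _ hc' (redCyc_bd k c)
    obtain ⟨b, hb, h⟩ := acy_univ (E := E) (k + 1) (c - b') (mem_univ_con _ _) (by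
      change bd k (c - b') = 0
      rw [map_sub, h', sub_self])
    refine ⟨b, hb, ?_⟩
    rw [h, sub_sub_cancel]
    exact hb'

theorem lft_point [ContractibleSpace E] (e : E) (n : ℕ) : Lft ({e} : Set E) n := by
  have : SimplyConnectedSpace ({e} : Set E) := by
    have : ContractibleSpace ({e} : Set E) := by
      have : Unique ({e} : Set E) := Set.uniqueSingleton e
      infer_instance
    infer_instance
  exact CV.main E {e} n (relHur E {e} (hzero_point e) n)

theorem Ph_surj {z : Dk 3} (h : (z : Fin 3 → ℝ) 0 = 1) : ∃ y, Ph 2 y = z := by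
  refine ⟨⟨tl z, by rw [mem_closedBall_zero_iff]; exact tl_le z⟩, ?_⟩
  apply Subtype.ext
  funext i
  refine Fin.cases ?_ (fun i => ?_) i
  · exact h.symm
  · rfl

/-- A spherical disc in a contractible space can be filled. -/
theorem exists_fill [ContractibleSpace E] (e : E) (τ : C(Dk 2, E))
    (hτ : ∀ y : Dk 2, ‖(y : Fin 2 → ℝ)‖ = 1 → τ y = e) :
    ∃ δ : C(Dk 3, E), (∀ y, δ (Ph 2 y) = τ y) ∧ ∀ z ∈ J 2, δ z = e := by
  obtain ⟨K, h0, hb, h1⟩ := lft_point e 2 τ (ContinuousMap.const _ e)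
    (fun x => (hτ x.1 x.2).symm) (fun _ => rfl)
  have hcl : ∀ z : Dk 3, tl z ∈ closedBall (0 : Fin 2 → ℝ) 1 := fun z => by
    rw [mem_closedBall_zero_iff]; exact tl_le z
  refine ⟨⟨fun z => K (par (-(z : Fin 3 → ℝ) 0), ⟨tl z, hcl z⟩), ?_⟩, ?_, ?_⟩
  · refine K.continuous.comp (Continuous.prodMk (continuous_par.comp continuous_hd.neg) ?_)
    exact continuous_tl.subtype_mk _
  · intro y
    change K (par (-1), ⟨tl (Ph 2 y), _⟩) = τ y
    rw [YH.par_neg_one]
    exact h0 y
  · rintro z (hz | hz)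
    · change K (par (-(z : Fin 3 → ℝ) 0), ⟨tl z, _⟩) = e
      rw [hz, neg_neg, YH.par_one]
      exact h1 _
    · exact hb _ ⟨⟨tl z, hcl z⟩, hz⟩

end Vale.Agent.P246.Dis.H285
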