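import Mathlib.Topology.Homotopy.Lifting

/-! # P246, disproof: the fundamental group of the base of a simply connected covering (D5c) -/

open Topology

namespace Vale.Agent.P246.Dis.H285

/-- The group of a quotient covering with simply connected total space is the fundamental group of
the base. -/
theorem pi1_equiv {G E X : Type} [Group G] [TopologicalSpace E] [TopologicalSpace X]
    [MulAction G E] {p : E → X} (hp : IsQuotientCoveringMap p G) [SimplyConnectedSpace E] (x : X) :
    Nonempty (FundamentalGroup X x ≃* G) := by
  obtain ⟨e, he⟩ := hp.surjective x
  exact ⟨(hp.fundamentalGroupEquiv (x := x) ⟨e, he⟩).trans (MulEquiv.inv' G).symm⟩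

end Vale.Agent.P246.Dis.H285
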