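import Mathlib.Topology.Covering.Quotient
import Mathlib.Topology.Algebra.SeparationQuotient.Basic
import Mathlib.Topology.Homotopy.Contractible
import Mathlib.MeasureTheory.Measure.Lebesgue.Basic
import Mathlib.Topology.MetricSpace.Isometry
import Mathlib.Topology.Separation.Hausdorff

/-! # P246, disproof: a contractible metric space with a free action (block D0)

`EE T` is the space of all functions `[0, 1) → T` with the (outer) measure of the set where two
functions differ as pseudometric, `FF T` is the associated metric space, on which `T` acts by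
isometries which move each point by distance `1`. -/

open Set Topology unitInterval

namespace Vale.Agent.P246.Dis.H285

/-- The space of all functions from `[0, 1)` to `T`. -/
def EE (T : Type) : Type := Ico (0 : ℝ) 1 → T

namespace EE

variable {T : Type}

theorem vol_ne_top (s : Set (Ico (0 : ℝ) 1)) :
    MeasureTheory.volume ((Subtype.val : Ico (0 : ℝ) 1 → ℝ) '' s) ≠ ⊤ := by
  refine ne_top_of_le_ne_top (b := MeasureTheory.volume (Ico (0 : ℝ) 1)) (by simp)
    (MeasureTheory.measure_mono ?_)
  rintro _ ⟨x, -, rfl⟩
  exact x.2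

/-- Distance: the (outer) measure of the set where the functions differ. -/
noncomputable instance : PseudoMetricSpace (EE T) where
  dist f g := (MeasureTheory.volume (Subtype.val '' {x | f x ≠ g x})).toReal
  dist_self f := by simp
  dist_comm f g := by simp only [ne_comm]
  dist_triangle f g h := by
    rw [← ENNReal.toReal_add (vol_ne_top _) (vol_ne_top _)]
    refine ENNReal.toReal_mono (ENNReal.add_ne_top.2 ⟨vol_ne_top _, vol_ne_top _⟩) ?_
    refine le_trans (MeasureTheory.measure_mono ?_) (MeasureTheory.measure_union_le _ _)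
    rw [← image_union]
    refine image_mono ?_
    intro x hx
    by_contra hcon
    simp only [mem_union, mem_ofPred_eq, not_or, not_not] at hcon
    exact hx (hcon.1.trans hcon.2)

theorem dist_def (f g : EE T) :
    dist f g = (MeasureTheory.volume
      ((Subtype.val : Ico (0 : ℝ) 1 → ℝ) '' {x | f x ≠ g x})).toReal := rfl

variable [Group T]

instance : MulAction T (EE T) where
  smul t f := fun x => t * f x
  one_smul f := by funext x; exact one_mul _
  mul_smul a b f := by funext x; exact mul_assoc _ _ _

theorem smul_apply (t : T) (f : EE T) (x : Ico (0 : ℝ) 1) : (t • f) x = t * f x := rfl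

/-- the constant function `1` -/
def one (T : Type) [Group T] : EE T := fun _ => 1

/-- the standard contraction: `con 0 f = f` and `con 1 f = one T`. -/
noncomputable def con (s : I) (f : EE T) : EE T := fun x => if (x : ℝ) < (s : ℝ) then 1 else f x

theorem dist_smul_smul (t : T) (f g : EE T) : dist (t • f) (t • g) = dist f g := by
  rw [dist_def, dist_def]
  congr 3
  ext x
  simp only [mem_ofPred_eq, smul_apply, ne_eq, mul_right_inj]

instance : ContinuousConstSMul T (EE T) where
  continuous_const_smul t := (Isometry.of_dist_eq (dist_smul_smul t)).continuous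

theorem dist_smul_self {t : T} (ht : t ≠ 1) (f : EE T) : dist (t • f) f = 1 := by
  rw [dist_def]
  have h : {x | (t • f) x ≠ f x} = univ := by
    ext x
    simp only [mem_ofPred_eq, smul_apply, mem_univ, iff_true]
    intro h
    exact ht (mul_eq_right.1 h)
  rw [h, image_univ, Subtype.range_coe]
  simp

theorem dist_con_con (s s' : I) (f g : EE T) :
    dist (con s f) (con s' g) ≤ |(s : ℝ) - s'| + dist f g := by
  have h1 : ((Subtype.val : Ico (0 : ℝ) 1 → ℝ) '' {x | con s f x ≠ con s' g x}) ⊆
      uIcc (s : ℝ) s' ∪ ((Subtype.val : Ico (0 : ℝ) 1 → ℝ) '' {x | f x ≠ g x}) := by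
    rintro _ ⟨x, hx, rfl⟩
    have hx' : con s f x ≠ con s' g x := hx
    by_cases h1 : (x : ℝ) < s
    · by_cases h2 : (x : ℝ) < s'
      · exact absurd (by simp only [con, if_pos h1, if_pos h2]) hx'
      · left
        rw [mem_uIcc]
        exact Or.inr ⟨not_lt.1 h2, h1.le⟩
    · by_cases h2 : (x : ℝ) < s'
      · left
        rw [mem_uIcc]
        exact Or.inl ⟨not_lt.1 h1, h2.le⟩
      · right
        refine ⟨x, ?_, rfl⟩
        change f x ≠ g x
        simpa only [con, if_neg h1, if_neg h2] using hx'
  have h2 := (MeasureTheory.measure_mono (μ := MeasureTheory.volume) h1).trans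
    (MeasureTheory.measure_union_le _ _)
  rw [Real.volume_interval] at h2
  rw [dist_def, dist_def]
  have h3 := ENNReal.toReal_mono
    (ENNReal.add_ne_top.2 ⟨ENNReal.ofReal_ne_top, vol_ne_top _⟩) h2
  rw [ENNReal.toReal_add ENNReal.ofReal_ne_top (vol_ne_top _),
    ENNReal.toReal_ofReal (abs_nonneg _)] at h3
  rw [abs_sub_comm (s : ℝ) s']
  exact h3

theorem con_zero (f : EE T) : con 0 f = f := by
  funext x
  exact if_neg (not_lt.2 x.2.1)

theorem con_one (f : EE T) : con 1 f = one T := by
  funext x
  exact if_pos x.2.2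

end EE

/-- the metric space associated to `EE T` -/
abbrev FF (T : Type) : Type := SeparationQuotient (EE T)

namespace FF

variable {T : Type} [Group T]

/-- the class of a function -/
noncomputable def mk (f : EE T) : FF T := SeparationQuotient.mk f

omit [Group T] in
theorem mk_surj (q : FF T) : ∃ f, mk f = q := SeparationQuotient.surjective_mk q

omit [Group T] in
theorem dist_mk (f g : EE T) : dist (mk f) (mk g) = dist f g := SeparationQuotient.dist_mk f g

theorem smul_mk (t : T) (f : EE T) : t • mk f = mk (t • f) := rfl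

theorem dist_smul_smul (t : T) (f g : FF T) : dist (t • f) (t • g) = dist f g := by
  obtain ⟨f, rfl⟩ := mk_surj f
  obtain ⟨g, rfl⟩ := mk_surj g
  rw [smul_mk, smul_mk, dist_mk, dist_mk, EE.dist_smul_smul]

theorem dist_smul_self {t : T} (ht : t ≠ 1) (f : FF T) : dist (t • f) f = 1 := by
  obtain ⟨f, rfl⟩ := mk_surj f
  rw [smul_mk, dist_mk, EE.dist_smul_self ht]

/-- the contraction -/
noncomputable def con (p : I × FF T) : FF T :=
  SeparationQuotient.lift (fun f => mk (EE.con p.1 f)) (fun f g h => by
    refine eq_of_dist_eq_zero (le_antisymm ?_ dist_nonneg)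
    rw [dist_mk]
    refine (EE.dist_con_con _ _ _ _).trans ?_
    rw [sub_self, abs_zero, zero_add]
    exact (Metric.inseparable_iff.1 h).le) p.2

theorem con_mk (s : I) (f : EE T) : con (s, mk f) = mk (EE.con s f) := rfl

theorem continuous_con : Continuous (con : I × FF T → FF T) := by
  have h : LipschitzWith 2 (con : I × FF T → FF T) := by
    apply LipschitzWith.of_dist_le_mul
    rintro ⟨s, f⟩ ⟨s', g⟩
    obtain ⟨f, rfl⟩ := mk_surj f
    obtain ⟨g, rfl⟩ := mk_surj g
    rw [con_mk, con_mk, dist_mk]
    refine (EE.dist_con_con s s' f g).trans ?_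
    rw [Prod.dist_eq, dist_mk]
    have h1 : |(s : ℝ) - s'| ≤ max (dist s s') (dist f g) := le_max_left _ _
    have h2 : dist f g ≤ max (dist s s') (dist f g) := le_max_right _ _
    have h3 : ((2 : NNReal) : ℝ) = 2 := rfl
    rw [h3]
    linarith
  exact h.continuous

theorem con_zero (q : FF T) : con (0, q) = q := by
  obtain ⟨f, rfl⟩ := mk_surj q
  rw [con_mk, EE.con_zero]

theorem con_one (q : FF T) : con (1, q) = mk (EE.one T) := by
  obtain ⟨f, rfl⟩ := mk_surj q
  rw [con_mk, EE.con_one]

instance : ContractibleSpace (FF T) := by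
  rw [contractible_iff_id_nullhomotopic]
  refine ⟨mk (EE.one T), ⟨⟨⟨con, continuous_con⟩, ?_, ?_⟩⟩⟩
  · intro q
    exact con_zero q
  · intro q
    exact con_one q

/-- small balls are disjoint from their translates -/
theorem disjoint_ball (f : FF T) :
    ∃ U ∈ 𝓝 f, ∀ t : T, ((t • ·) '' U ∩ U).Nonempty → t = 1 := by
  refine ⟨Metric.ball f (1 / 2), Metric.ball_mem_nhds f (by norm_num), ?_⟩
  rintro t ⟨_, ⟨g, hg, rfl⟩, hg'⟩
  by_contra ht
  have h1 := dist_smul_self ht g
  have h2 := dist_triangle (t • g) f g
  rw [Metric.mem_ball] at hg hg'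
  rw [dist_comm f g] at h2
  simp only at hg'
  linarith

/-- the quotient of `FF T` by `T` -/
abbrev QF (T : Type) [Group T] : Type := MulAction.orbitRel.Quotient T (FF T)

/-- the projection -/
noncomputable def pr (T : Type) [Group T] : C(FF T, QF T) := ⟨Quotient.mk _, continuous_quotient_mk'⟩

theorem isQuotientCoveringMap : IsQuotientCoveringMap (pr T) T where
  toIsQuotientMap := isQuotientMap_quotient_mk'
  continuous_const_smul := continuous_const_smul
  apply_eq_iff_mem_orbit := Quotient.eq''
  disjoint := disjoint_ball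

theorem pr_eq_iff {f g : FF T} : pr T f = pr T g ↔ ∃ a : T, a • g = f := by
  rw [isQuotientCoveringMap.apply_eq_iff_mem_orbit]
  exact Iff.rfl

/-- the orbits are uniformly discrete -/
theorem exists_pos {f g : FF T} (h : ∀ a : T, a • g ≠ f) :
    ∃ δ > 0, ∀ a : T, δ ≤ dist (a • g) f := by
  by_cases h0 : ∃ a : T, dist (a • g) f < 1 / 2
  · obtain ⟨a, ha⟩ := h0
    refine ⟨dist (a • g) f, dist_pos.2 (h a), fun b => ?_⟩
    by_cases hb : b = a
    · rw [hb]
    · have h1 : dist (b • g) (a • g) = 1 := by
        have h2 := dist_smul_self (t := a⁻¹ * b) (fun h3 => hb (inv_mul_eq_one.1 h3).symm) g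
        rw [← dist_smul_smul a, ← mul_smul, mul_inv_cancel_left] at h2
        exact h2
      have h2 := dist_triangle (b • g) f (a • g)
      rw [h1, dist_comm f] at h2
      linarith
  · push Not at h0
    exact ⟨1 / 2, by norm_num, h0⟩

instance : T2Space (QF T) := by
  rw [t2Space_iff]
  intro x y hxy
  obtain ⟨f, rfl⟩ := isQuotientCoveringMap.surjective x
  obtain ⟨g, rfl⟩ := isQuotientCoveringMap.surjective y
  obtain ⟨δ, hδ, h⟩ := exists_pos (f := f) (g := g)
    fun a ha => hxy (pr_eq_iff.2 ⟨a, ha⟩)
  have hop : IsOpenMap (pr T) := isQuotientCoveringMap.isOpenQuotientMap.isOpenMap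
  refine ⟨pr T '' Metric.ball f (δ / 2), pr T '' Metric.ball g (δ / 2),
    hop _ Metric.isOpen_ball, hop _ Metric.isOpen_ball,
    ⟨f, Metric.mem_ball_self (by positivity), rfl⟩,
    ⟨g, Metric.mem_ball_self (by positivity), rfl⟩, ?_⟩
  rw [Set.disjoint_iff]
  rintro _ ⟨⟨f', hf', rfl⟩, ⟨g', hg', he⟩⟩
  obtain ⟨a, ha⟩ := pr_eq_iff.1 he.symm
  rw [Metric.mem_ball] at hf' hg'
  have h1 := h a
  have h2 := dist_triangle (a • g) f' f
  have h3 : dist (a • g) f' = dist g g' := by rw [← ha, dist_smul_smul]
  rw [h3, dist_comm g] at h2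
  linarith

end FF

/-- Each group acts freely, and as the group of a covering with Hausdorff base, on a contractible
metric space. -/
theorem exists_ambient (G : Type) [Group G] :
    ∃ (E X : Type) (_ : MetricSpace E) (_ : TopologicalSpace X) (_ : T2Space X)
      (_ : MulAction G E) (_ : ContinuousConstSMul G E) (p : C(E, X)),
      ContractibleSpace E ∧ IsQuotientCoveringMap p G :=
  ⟨FF G, FF.QF G, inferInstance, inferInstance, inferInstance, inferInstance, inferInstance,
    FF.pr G, inferInstance, FF.isQuotientCoveringMap⟩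

end Vale.Agent.P246.Dis.H285
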